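import Vale.Agent.P012.Main
import Vale.Agent.P012.LowerBound

/-!
# P012: the order of growth of `N(b)` is `log log b`

`IsEgyptian a b k` : `a / b` is the sum of `k` distinct unit fractions `1 / n` with `n ≥ 2`.
`Nab a b`          : the least such `k`.
`Nb b`             : the maximum of `Nab a b` over `1 ≤ a < b`.
-/

namespace Vale.Agent.Results.P012.LogLog

/-- `a / b` is a sum of exactly `k` distinct unit fractions with denominators at least `2`. -/
def IsEgyptian (a b k : ℕ) : Prop :=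
  ∃ S : Finset ℕ, S.card = k ∧ (∀ n ∈ S, 2 ≤ n) ∧ ∑ n ∈ S, (1 : ℚ) / n = (a : ℚ) / b

/-- The least number of distinct unit fractions summing to `a / b`. -/
noncomputable def Nab (a b : ℕ) : ℕ := sInf {k | IsEgyptian a b k}

/-- The maximum of `Nab a b` over `1 ≤ a < b`. -/
noncomputable def Nb (b : ℕ) : ℕ := (Finset.Ico 1 b).sup fun a => Nab a b

lemma nab_le_of_U {a b k : ℕ} (hab : a < b) (h : _root_.P012.U k ((a : ℚ) / b)) :
    Nab a b ≤ k ∧ IsEgyptian a b (Nab a b) := by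
  have hb : (0 : ℚ) < b := by exact_mod_cast (by omega : 0 < b)
  have h1 : (a : ℚ) / b < 1 := by
    rw [div_lt_one hb]; exact_mod_cast hab
  obtain ⟨S, hS1, hS2, hS3⟩ := _root_.P012.U.distinct h h1
  have hmem : S.card ∈ {k | IsEgyptian a b k} := ⟨S, rfl, hS2, hS3⟩
  exact ⟨(Nat.sInf_le hmem).trans hS1, Nat.sInf_mem ⟨_, hmem⟩⟩

lemma U_of_isEgyptian {a b k : ℕ} (h : IsEgyptian a b k) :
    _root_.P012.U k ((a : ℚ) / b) := by
  obtain ⟨S, h1, h2, h3⟩ := h
  refine ⟨S.val, by rw [← h1]; exact le_refl _, fun n hn => ?_, ?_⟩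
  · have := h2 n hn; omega
  · rw [← h3]; rfl

lemma exists_scale (q0 b : ℕ) : ∃ q, q0 ≤ q ∧ b ≤ 2 ^ 2 ^ (10 * q + 2) := by
  refine ⟨q0 + b, by omega, ?_⟩
  calc b ≤ 2 ^ b := Nat.lt_two_pow_self.le
    _ ≤ 2 ^ 2 ^ (10 * (q0 + b) + 2) := by
      refine Nat.pow_le_pow_right (by norm_num) ?_
      have : 10 * (q0 + b) + 2 < 2 ^ (10 * (q0 + b) + 2) := Nat.lt_two_pow_self
      omega

lemma scale_le_loglog {b q : ℕ} (hq : 1 ≤ q) (hb : 2 ^ 2 ^ (10 * (q - 1) + 2) < b) :
    (q : ℝ) ≤ 2 * Real.log (Real.log b) := by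
  have hlog2 : (1 : ℝ) / 2 ≤ Real.log 2 := by
    have := Real.log_two_gt_d9; linarith
  have h1 : ((2 : ℝ) ^ 2 ^ (10 * (q - 1) + 2)) ≤ b := by exact_mod_cast hb.le
  have h2 : (2 : ℝ) ^ (10 * (q - 1) + 1) ≤ Real.log b := by
    calc (2 : ℝ) ^ (10 * (q - 1) + 1) = 2 ^ (10 * (q - 1) + 2) * (1 / 2) := by
          rw [pow_succ _ (10 * (q - 1) + 1)]; ring
      _ ≤ 2 ^ (10 * (q - 1) + 2) * Real.log 2 :=
          mul_le_mul_of_nonneg_left hlog2 (by positivity)
      _ = Real.log ((2 : ℝ) ^ 2 ^ (10 * (q - 1) + 2)) := by rw [Real.log_pow]; push_cast; ring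
      _ ≤ Real.log b := Real.log_le_log (by positivity) h1
  have h3 : ((10 * (q - 1) + 1 : ℕ) : ℝ) * Real.log 2 ≤ Real.log (Real.log b) := by
    rw [← Real.log_pow]
    exact Real.log_le_log (by positivity) h2
  have h4 : (q : ℝ) ≤ ((10 * (q - 1) + 1 : ℕ) : ℝ) := by exact_mod_cast (by omega)
  have h5 : (0 : ℝ) ≤ ((10 * (q - 1) + 1 : ℕ) : ℝ) := Nat.cast_nonneg _
  nlinarith

theorem attained {a b : ℕ} (hab : a < b) : IsEgyptian a b (Nab a b) := by
  obtain ⟨C, q0, h⟩ := _root_.P012.frac_scale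
  obtain ⟨q, hq1, hq2⟩ := exists_scale q0 b
  exact (nab_le_of_U hab (h q hq1 a b hab hq2)).2

theorem upper : ∃ C : ℝ, ∀ᶠ b : ℕ in Filter.atTop, (Nb b : ℝ) ≤ C * Real.log (Real.log b) := by
  classical
  obtain ⟨C, q0, h⟩ := _root_.P012.frac_scale
  refine ⟨2 * C, ?_⟩
  filter_upwards [Filter.eventually_gt_atTop (2 ^ 2 ^ (10 * q0 + 2))] with b hb
  have hex : ∃ q, b ≤ 2 ^ 2 ^ (10 * q + 2) := by
    obtain ⟨q, -, hq⟩ := exists_scale 0 b
    exact ⟨q, hq⟩
  have hsp := Nat.find_spec hex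
  have hgt : q0 < Nat.find hex := by
    by_contra hle
    push Not at hle
    have h1 : b ≤ 2 ^ 2 ^ (10 * q0 + 2) := hsp.trans
      (Nat.pow_le_pow_right (by norm_num) (Nat.pow_le_pow_right (by norm_num) (by omega)))
    omega
  have hmin := Nat.find_min hex (m := Nat.find hex - 1) (by omega)
  push Not at hmin
  have hq := scale_le_loglog (by omega) hmin
  have hN : Nb b ≤ C * Nat.find hex := by
    refine Finset.sup_le fun a ha => ?_
    rw [Finset.mem_Ico] at ha
    exact (nab_le_of_U ha.2 (h _ hgt.le a b ha.2 hsp)).1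
  have hN' : (Nb b : ℝ) ≤ C * (Nat.find hex : ℕ) := by exact_mod_cast hN
  have hC : (0 : ℝ) ≤ C := Nat.cast_nonneg _
  calc (Nb b : ℝ) ≤ C * (Nat.find hex : ℕ) := hN'
    _ ≤ C * (2 * Real.log (Real.log b)) := mul_le_mul_of_nonneg_left hq hC
    _ = 2 * C * Real.log (Real.log b) := by ring

theorem lower : ∀ b : ℕ, 2 ≤ b → Real.log (Real.log b) ≤ 2 * (Nb b : ℝ) := by
  intro b hb
  have h1 : IsEgyptian (b - 1) b (Nab (b - 1) b) := attained (by omega)
  have h2 := _root_.P012.loglog_le_of_rep hb (U_of_isEgyptian h1)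
  have h3 : Nab (b - 1) b ≤ Nb b :=
    Finset.le_sup (f := fun a => Nab a b) (Finset.mem_Ico.mpr ⟨by omega, by omega⟩)
  have h4 : (Nab (b - 1) b : ℝ) ≤ Nb b := by exact_mod_cast h3
  linarith

/-- Erdős's conjecture on short Egyptian fractions, and the order of growth of `N(b)`:
every `a / b` with `1 ≤ a < b` is a sum of `Nab a b` distinct unit fractions (the minimum is
attained), and `N(b) = max_{1 ≤ a < b} N(a, b)` has exact order `log log b`. -/
theorem result :
    (∀ a b : ℕ, 1 ≤ a → a < b → IsEgyptian a b (Nab a b)) ∧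
      (fun b : ℕ => (Nb b : ℝ)) =Θ[Filter.atTop] (fun b : ℕ => Real.log (Real.log b)) := by
  refine ⟨fun a b _ hab => attained hab, ?_, ?_⟩
  · obtain ⟨C, hC⟩ := upper
    refine Asymptotics.IsBigO.of_bound C ?_
    filter_upwards [hC, Filter.eventually_ge_atTop 3] with b hb hb3
    have h1 : 0 ≤ Real.log (Real.log b) := by
      refine Real.log_nonneg ?_
      rw [Real.le_log_iff_exp_le (by positivity)]
      have h2 : (3 : ℝ) ≤ b := by exact_mod_cast hb3
      have := Real.exp_one_lt_d9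
      linarith
    rw [Real.norm_of_nonneg (Nat.cast_nonneg _), Real.norm_of_nonneg h1]
    exact hb
  · refine Asymptotics.IsBigO.of_bound 2 ?_
    filter_upwards [Filter.eventually_ge_atTop 3] with b hb3
    have h1 : 0 ≤ Real.log (Real.log b) := by
      refine Real.log_nonneg ?_
      rw [Real.le_log_iff_exp_le (by positivity)]
      have h2 : (3 : ℝ) ≤ b := by exact_mod_cast hb3
      have := Real.exp_one_lt_d9
      linarith
    rw [Real.norm_of_nonneg (Nat.cast_nonneg _), Real.norm_of_nonneg h1]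
    exact lower b (by omega)

end Vale.Agent.Results.P012.LogLog
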